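import Vale.Agent.P340.Classify

namespace Vale.Agent.Results.P340.NondependentBGK

universe u

open Vale.Agent.P340

/-- Every stratified pure type system (in particular every generalized non-dependent one) is
weakly normalizing iff it is strongly normalizing iff it has no shifted copy of the rules of
`λU⁻`; and in an arbitrary pure type system such a copy destroys weak normalization. -/
theorem result {S : Type u} (P : Spec S) :
    (NonDependent P → Stratified P) ∧
    (Stratified P → (WeaklyNormalizing P ↔ StronglyNormalizing P) ∧
      (StronglyNormalizing P ↔ ¬ LambdaUPattern P)) ∧
    (LambdaUPattern P → ¬ WeaklyNormalizing P) :=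
  ⟨NonDependent.stratified, stratified_classification, not_wn_of_pattern⟩

end Vale.Agent.Results.P340.NondependentBGK
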