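import Vale.Agent.P340.OcMain

namespace Vale.Agent.Results.P340.OddlyConnectedBGK

universe u

open Vale.Agent.P340

/-- A pure type system with functional axioms and rules `(a, b, b)`, in which any two sorts of
products are joined by a path of odd length in the rule graph, is weakly normalizing iff it is
strongly normalizing. Dependent rules and cyclic axioms are allowed. -/
theorem result {S : Type u} (P : Spec S) (h : Oc.OddlyConnected P) :
    WeaklyNormalizing P ↔ StronglyNormalizing P :=
  Oc.weakly_iff_strongly h

end Vale.Agent.Results.P340.OddlyConnectedBGK
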